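import Vale.Agent.Lib.P219.Co.RiNeg
import Vale.Agent.Lib.P219.K.Ex.Cert
import Vale.Agent.Lib.P219.K.Lin2.Strict2
import Vale.Agent.Lib.P219.Ri.Co
import Vale.Agent.Lib.P219.Ri.StrictSix
import Vale.Agent.Lib.P219.Ce.N4S
import Vale.Agent.Lib.P219.Ce.N5
import Vale.Agent.Lib.P219.Ce.N7
import Vale.Agent.Lib.P219.Ce.N8
import Vale.Agent.Lib.P219.Ce.N9
import Vale.Agent.Lib.P219.Ce.N10
import Vale.Agent.Lib.P219.Ce.N11
import Vale.Agent.Lib.P219.Ce.N12

/-!
# P219: the generalized Cartan-Hadamard conjecture in dimension four for all curvatures `κ < 0`, and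
the Cartan-Hadamard conjecture (`κ = 0`) in dimensions four to twelve, with the equality cases
-/

namespace Vale.Agent.Results.P219.AllCurvaturesDimFour

open Vale.Agent.Lib.P219 Vale.Agent.Lib.P219.Co

private theorem both {n : ℕ} (hn : 2 ≤ n) (h : ∃ c : RawCert n, c.Strict) :
    CartanHadamardInequality n ∧ CartanHadamardRigidity n := by
  obtain ⟨c, hc⟩ := h
  exact ⟨inequality_of_hasKer hn (hasKer_of_raw hn c), rigidity_of_strict hn hc⟩

private theorem exists_cert_four {R : ℝ} (hR : 0 < R) : ∃ c : RawCertH 4 R, c.Strict :=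
  ⟨(Ex.cert R hR).raw hR, (Ex.cert_strict R hR).raw hR⟩

private theorem negative {κ : ℝ} (hκ : κ < 0) {r : ℝ} (hr : 0 ≤ r) :
    ModelInequality 4 κ r ∧ ModelRigidity 4 κ r := by
  obtain ⟨c, -⟩ := exists_strict_four
  have hk : HasKer 4 := hasKer_of_raw (by norm_num) c
  have hker : ∀ R, 0 < R → HasKerR 4 R := fun R hR =>
    hasKerR_of_raw (by norm_num) hR ((Ex.cert R hR).raw hR)
  exact ⟨modelInequality_of_hasKerR (by norm_num) hk (fun R hR _ => hker R hR) hκ hr le_rfl,
    modelRigidity_of_strict (by norm_num) hk hker (fun R hR => exists_cert_four hR) hκ hr⟩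

/-- **The generalized Cartan-Hadamard conjecture in dimension `4` for all `κ < 0`, and the
Cartan-Hadamard conjecture (`κ = 0`) in dimensions `4, …, 12`, including rigidity.** -/
theorem result :
    (∀ κ : ℝ, κ < 0 → ∀ r : ℝ, 0 ≤ r → ModelInequality 4 κ r ∧ ModelRigidity 4 κ r) ∧
      (∀ n : ℕ, 4 ≤ n → n ≤ 12 → CartanHadamardInequality n ∧ CartanHadamardRigidity n) := by
  refine ⟨fun κ hκ r hr => negative hκ hr, ?_⟩
  intro n h4 h12
  interval_cases n
  · exact both (by norm_num) exists_strict_four
  · exact both (by norm_num) Bern.exists_strict_five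
  · exact both (by norm_num) exists_strict_six
  · exact both (by norm_num) Bern.exists_strict_seven
  · exact both (by norm_num) Bern.exists_strict_eight
  · exact both (by norm_num) Bern.exists_strict_nine
  · exact both (by norm_num) Bern.exists_strict_ten
  · exact both (by norm_num) Bern.exists_strict_eleven
  · exact both (by norm_num) Bern.exists_strict_twelve

end Vale.Agent.Results.P219.AllCurvaturesDimFour
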