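import Vale.Agent.Lib.P219E.Bridge
import Vale.Agent.Lib.P219.Ri.Co
import Vale.Agent.Lib.P219.Ri.StrictSix
import Vale.Agent.Lib.P219.Ce.N4S
import Vale.Agent.Lib.P219.Ce.N5
import Vale.Agent.Lib.P219.Ce.N7
import Vale.Agent.Lib.P219.Ce.N8
import Vale.Agent.Lib.P219.Ce.N9
import Vale.Agent.Lib.P219.Ce.N10
import Vale.Agent.Lib.P219.Ce.N11
import Vale.Agent.Lib.P219.Ce.N12
import Vale.Agent.Lib.P219.Co.RiNeg
import Vale.Agent.Lib.P219.K.Ex.Cert
import Vale.Agent.Lib.P219.K.Lin2.Strict2

/-!
# P219: the generalized Cartan-Hadamard conjecture in dimension four for every `κ ≤ 0`, and in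
dimensions five to twelve for `κ = 0`, with the equality case; coordinate-free form
-/

namespace Vale.Agent.Results.P219.CoordinateFree

open Vale.Agent.Lib.P219 Vale.Agent.Lib.P219E

private theorem flat {n : ℕ} (hn : 2 ≤ n) (h : ∃ c : RawCert n, c.Strict) :
    CartanHadamardConjecture n 0 := by
  obtain ⟨c, hc⟩ := h
  exact of_D hn (Vale.Agent.Lib.P219D.conjecture_zero hn
    (Co.inequality_of_hasKer hn (hasKer_of_raw hn c)) (Co.rigidity_of_strict hn hc)).1

private theorem cert_four {R : ℝ} (hR : 0 < R) : ∃ c : RawCertH 4 R, c.Strict :=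
  ⟨(Ex.cert R hR).raw hR, (Ex.cert_strict R hR).raw hR⟩

private theorem hasKerR_four {R : ℝ} (hR : 0 < R) : HasKerR 4 R := by
  obtain ⟨c, -⟩ := cert_four hR
  exact hasKerR_of_raw (by norm_num) hR c

/-- The generalized Cartan-Hadamard conjecture, inequality and equality case: in dimension four for
every curvature bound `κ ≤ 0`, and in dimensions five to twelve for `κ = 0`. -/
theorem result :
    (∀ κ : ℝ, κ ≤ 0 → CartanHadamardConjecture 4 κ) ∧
    ∀ n : ℕ, 5 ≤ n → n ≤ 12 → CartanHadamardConjecture n 0 := by
  refine ⟨fun κ hκ => ?_, fun n h5 h12 => ?_⟩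
  · rcases hκ.eq_or_lt with h | h
    · subst h
      exact flat (by norm_num) exists_strict_four
    · obtain ⟨c, -⟩ := exists_strict_four
      have hk : HasKer 4 := hasKer_of_raw (by norm_num) c
      exact of_D (by norm_num) (Vale.Agent.Lib.P219D.conjecture_neg (by norm_num) h
        (fun r hr => Co.modelInequality_of_hasKerR (by norm_num) hk
          (fun R hR _ => hasKerR_four hR) h hr le_rfl)
        (fun r hr => Co.modelRigidity_of_strict (by norm_num) hk (fun R hR => hasKerR_four hR)
          (fun R hR => cert_four hR) h hr)).1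
  · interval_cases n
    · exact flat (by norm_num) Bern.exists_strict_five
    · exact flat (by norm_num) exists_strict_six
    · exact flat (by norm_num) Bern.exists_strict_seven
    · exact flat (by norm_num) Bern.exists_strict_eight
    · exact flat (by norm_num) Bern.exists_strict_nine
    · exact flat (by norm_num) Bern.exists_strict_ten
    · exact flat (by norm_num) Bern.exists_strict_eleven
    · exact flat (by norm_num) Bern.exists_strict_twelve

end Vale.Agent.Results.P219.CoordinateFree
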