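import Vale.Agent.Lib.P219.Ri.Co
import Vale.Agent.Lib.P219.Ri.StrictSix
import Vale.Agent.Lib.P219.Ce.N5
import Vale.Agent.Lib.P219.Ce.N7
import Vale.Agent.Lib.P219.Ce.N8
import Vale.Agent.Lib.P219.Ce.N9
import Vale.Agent.Lib.P219.Ce.N10
import Vale.Agent.Lib.P219.Ce.N11

/-!
# P219: the Cartan-Hadamard conjecture in dimensions five to eleven
-/

namespace Vale.Agent.Results.P219.DimFiveToEleven

open Vale.Agent.Lib.P219 Vale.Agent.Lib.P219.Co

/-- **The Cartan-Hadamard conjecture (`κ = 0`) in dimensions `5, …, 11`; in dimension six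
including rigidity.** -/
theorem result : (∀ n : ℕ, 5 ≤ n → n ≤ 11 → CartanHadamardInequality n) ∧
    CartanHadamardRigidity 6 := by
  obtain ⟨c, hc⟩ := exists_strict_six
  refine ⟨fun n h5 h11 => ?_, rigidity_of_strict (by norm_num) hc⟩
  interval_cases n
  · exact inequality_of_hasKer (by norm_num) Bern.hasKer_five
  · exact inequality_of_hasKer (by norm_num) hasKer_six
  · exact inequality_of_hasKer (by norm_num) Bern.hasKer_seven
  · exact inequality_of_hasKer (by norm_num) Bern.hasKer_eight
  · exact inequality_of_hasKer (by norm_num) Bern.hasKer_nine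
  · exact inequality_of_hasKer (by norm_num) Bern.hasKer_ten
  · exact inequality_of_hasKer (by norm_num) Bern.hasKer_eleven

end Vale.Agent.Results.P219.DimFiveToEleven
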