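import Vale.Agent.Lib.P219.Ri.Co
import Vale.Agent.Lib.P219.Ri.StrictSix
import Vale.Agent.Lib.P219.Ce.N5
import Vale.Agent.Lib.P219.Ce.N7
import Vale.Agent.Lib.P219.Ce.N8
import Vale.Agent.Lib.P219.Ce.N9
import Vale.Agent.Lib.P219.Ce.N10
import Vale.Agent.Lib.P219.Ce.N11
import Vale.Agent.Lib.P219.Ce.N12

/-!
# P219: the Cartan-Hadamard conjecture in dimensions five to twelve, with the equality case
-/

namespace Vale.Agent.Results.P219.SharpWithRigidity

open Vale.Agent.Lib.P219 Vale.Agent.Lib.P219.Co

private theorem both {n : ℕ} (hn : 2 ≤ n) (h : ∃ c : RawCert n, c.Strict) :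
    CartanHadamardInequality n ∧ CartanHadamardRigidity n := by
  obtain ⟨c, hc⟩ := h
  exact ⟨inequality_of_hasKer hn (hasKer_of_raw hn c), rigidity_of_strict hn hc⟩

/-- **The Cartan-Hadamard conjecture (`κ = 0`) in dimensions `5, …, 12`, including rigidity.** -/
theorem result : ∀ n : ℕ, 5 ≤ n → n ≤ 12 →
    CartanHadamardInequality n ∧ CartanHadamardRigidity n := by
  intro n h5 h12
  interval_cases n
  · exact both (by norm_num) Bern.exists_strict_five
  · exact both (by norm_num) exists_strict_six
  · exact both (by norm_num) Bern.exists_strict_seven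
  · exact both (by norm_num) Bern.exists_strict_eight
  · exact both (by norm_num) Bern.exists_strict_nine
  · exact both (by norm_num) Bern.exists_strict_ten
  · exact both (by norm_num) Bern.exists_strict_eleven
  · exact both (by norm_num) Bern.exists_strict_twelve

end Vale.Agent.Results.P219.SharpWithRigidity
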